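import Vale.Agent.P235.H427.Vit
import Vale.Agent.P235.H750.VDefs

/-! (VITS): a family of bad balls with disjoint enlargements, small ones first (helper536; the text
of `H427.vit`). -/

set_option autoImplicit false

namespace Vale.Agent.P235.H536Q

open SimpleGraph Vale.Agent.P235 Vale.Agent.P235.H606

/-- disjoint enlargements by the factor `a ≥ 1` -/
theorem vit_gen {V : Type} [Finite V] {G : SimpleGraph V} {ℓ : Sym2 V → ℝ} (P : Set V → Prop)
    (hc : G.Connected) (hℓ : ∀ e ∈ G.edgeSet, 0 < ℓ e) {a : ℝ} (ha : 1 ≤ a) :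
    ∃ (O : Set V) (R : V → ℝ), (∀ o ∈ O, 0 ≤ R o ∧ P (ball G ℓ o (R o))) ∧
      (O.PairwiseDisjoint fun o => ball G ℓ o (a * R o)) ∧
      ∀ (v : V) (ρ : ℝ), 0 ≤ ρ → (∀ o ∈ O, 2 * a * ρ < pathDist G ℓ v o) →
        ¬ P (ball G ℓ v ρ) := by
  classical
  have : Fintype V := Fintype.ofFinite V
  have hd := pathDist_isMet hc hℓ
  have h0 : ∀ x y, 0 ≤ pathDist G ℓ x y := pathDist_nonneg hℓ
  -- bad vertices
  set B : Finset V := Finset.univ.filter fun v => ∃ x, P (ball G ℓ v (pathDist G ℓ v x)) with hB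
  -- the smallest bad radius
  have hR : ∀ v, ∃ ρ : ℝ, 0 ≤ ρ ∧ (v ∈ B → P (ball G ℓ v ρ) ∧
      ∀ x, P (ball G ℓ v (pathDist G ℓ v x)) → ρ ≤ pathDist G ℓ v x) := by
    intro v
    by_cases hv : v ∈ B
    · obtain ⟨x, hx⟩ := (Finset.mem_filter.1 hv).2
      obtain ⟨x₀, hx₀, hmin⟩ := (Finset.univ.filter fun x =>
        P (ball G ℓ v (pathDist G ℓ v x))).exists_min_image (fun x => pathDist G ℓ v x)
        ⟨x, by simpa using hx⟩
      refine ⟨pathDist G ℓ v x₀, h0 _ _, fun _ => ⟨by simpa using hx₀, fun y hy => ?_⟩⟩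
      exact hmin y (by simpa using hy)
    · exact ⟨0, le_rfl, fun h => absurd h hv⟩
  choose R hR0 hR1 using hR
  obtain ⟨O, hO, hdis, hcov⟩ := H427.greedy R (fun v => ball G ℓ v (a * R v))
    (fun v => show pathDist G ℓ v v ≤ a * R v by
      rw [hd.self]; exact mul_nonneg (by linarith) (hR0 v)) B
  refine ⟨(O : Set V), R, fun o ho => ⟨hR0 o, (hR1 o (hO ho)).1⟩, hdis, fun v ρ hρ hfar hP => ?_⟩
  -- the bad ball is the ball through its farthest point
  obtain ⟨x₀, hx₀, hmax⟩ := (Finset.univ.filter fun x =>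
    pathDist G ℓ v x ≤ ρ).exists_max_image (fun x => pathDist G ℓ v x)
    ⟨v, by simpa [hd.self] using hρ⟩
  have hx₀' : pathDist G ℓ v x₀ ≤ ρ := by simpa using hx₀
  have hball : ball G ℓ v ρ = ball G ℓ v (pathDist G ℓ v x₀) := by
    ext y
    exact ⟨fun hy => hmax y (by simpa using (show pathDist G ℓ v y ≤ ρ from hy)),
      fun hy => le_trans (show pathDist G ℓ v y ≤ pathDist G ℓ v x₀ from hy) hx₀'⟩
  rw [hball] at hP
  have hvB : v ∈ B := by
    rw [hB, Finset.mem_filter]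
    exact ⟨Finset.mem_univ _, x₀, hP⟩
  have hRv : R v ≤ ρ := ((hR1 v hvB).2 x₀ hP).trans hx₀'
  obtain ⟨o, ho, h1, h2⟩ := hcov v hvB
  rw [Set.not_disjoint_iff] at h2
  obtain ⟨z, hz1, hz2⟩ := h2
  have hz1' : pathDist G ℓ o z ≤ a * R o := hz1
  have hz2' : pathDist G ℓ v z ≤ a * R v := hz2
  have h3 := hfar o ho
  have h4 := hd.tri v z o
  rw [hd.symm z o] at h4
  have h5 : a * R o ≤ a * ρ := mul_le_mul_of_nonneg_left (h1.trans hRv) (by linarith)
  have h6 : a * R v ≤ a * ρ := mul_le_mul_of_nonneg_left hRv (by linarith)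
  linarith [h0 v o]

/-- (VITS) -/
theorem vitS : H750.VitSStmt := by
  intro V _ G ℓ P hc hℓ hP
  obtain ⟨O, R, h1, h2, h3⟩ := vit_gen P hc hℓ (a := 5) (by norm_num)
  refine ⟨O, R, fun o ho => ⟨?_, (h1 o ho).2⟩, h2, fun v ρ hρ hfar => ?_⟩
  · refine lt_of_le_of_ne (h1 o ho).1 fun h0 => hP o ?_
    have hd := pathDist_isMet hc hℓ
    have hb : ball G ℓ o (R o) = {o} := by
      ext y
      refine ⟨fun hy => ?_, fun hy => ?_⟩
      · by_contra hne
        have h4 : pathDist G ℓ o y ≤ R o := hy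
        have h5 := hd.pos o y (fun h => hne h.symm)
        linarith
      · have h6 : y = o := hy
        show pathDist G ℓ o y ≤ R o
        rw [h6, hd.self, ← h0]
    rw [← hb]
    exact (h1 o ho).2
  · exact h3 v ρ hρ fun o ho => by linarith [hfar o ho]

end Vale.Agent.P235.H536Q
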