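import Vale.Agent.P235.H830.QDefs
import Vale.Agent.P235.H154.Menger
import Vale.Agent.P235.H502.Part
import Vale.Agent.P235.H917.Thin

/-!
# (P2): one separating vertex or two disjoint connected sets (helper536)
-/

namespace Vale.Agent.P235.H536Q

open SimpleGraph Vale.Agent.P235.H830

/-- the vertices of a path -/
theorem conn_path {V : Type} {G : SimpleGraph V} (w : ℕ → V) (n : ℕ)
    (h : ∀ j < n, G.Adj (w j) (w (j + 1))) : (G.induce {x | ∃ j ≤ n, w j = x}).Connected := by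
  have key : ∀ j, ∀ hj : j ≤ n, (G.induce {x | ∃ j ≤ n, w j = x}).Reachable
      ⟨w 0, 0, Nat.zero_le _, rfl⟩ ⟨w j, j, hj, rfl⟩ := by
    intro j
    induction j with
    | zero => intro hj; exact Reachable.refl _
    | succ j ih =>
      intro hj
      refine (ih (by omega)).trans (Adj.reachable ?_)
      exact h j (by omega)
  have key' : ∀ x : ({x | ∃ j ≤ n, w j = x} : Set V), (G.induce {x | ∃ j ≤ n, w j = x}).Reachable
      ⟨w 0, 0, Nat.zero_le _, rfl⟩ x := by
    rintro ⟨x, j, hj, rfl⟩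
    exact key j hj
  have : Nonempty ({x | ∃ j ≤ n, w j = x} : Set V) := ⟨⟨w 0, 0, Nat.zero_le _, rfl⟩⟩
  exact ⟨fun x y => (key' x).symm.trans (key' y)⟩

theorem p2Stmt : P2Stmt := by
  intro V _ G E T R hE hT hR hTn hRn
  classical
  have := Fintype.ofFinite E
  let A : Finset E := Finset.univ.filter fun e => e.1 ∈ T
  let B : Finset E := Finset.univ.filter fun e => e.1 ∈ R
  have hA : ∀ e : E, e ∈ A ↔ e.1 ∈ T := fun e => by simp [A]
  have hB : ∀ e : E, e ∈ B ↔ e.1 ∈ R := fun e => by simp [B]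
  rcases H154.menger (G.induce E).Adj A B 2 with ⟨v, L, h⟩ | ⟨S, hS, hsep⟩
  · right
    obtain ⟨p, hp, hc⟩ := H502.exists_part (G := G.induce E) hE
      (fun i : Fin 2 => {x | ∃ j ≤ L i, v i j = x}) (fun i => conn_path _ _ (h.adj i))
      (by
        intro i i' hne
        rw [Set.disjoint_left]
        rintro x ⟨j, hj, rfl⟩ ⟨j', hj', h'⟩
        exact hne (h.inj i j i' j' hj hj' h'.symm).1)
    have hcov : ∀ i : Fin 2, ∀ x : E, p x = i → x.1 ∈ Subtype.val '' (p ⁻¹' {i}) :=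
      fun i x hx => ⟨x, hx, rfl⟩
    have hs : ∀ i : Fin 2, v i 0 ∈ p ⁻¹' {i} := fun i => hp i _ ⟨0, Nat.zero_le _, rfl⟩
    have ht : ∀ i : Fin 2, v i (L i) ∈ p ⁻¹' {i} := fun i => hp i _ ⟨L i, le_rfl, rfl⟩
    refine ⟨Subtype.val '' (p ⁻¹' {0}), Subtype.val '' (p ⁻¹' {1}), ?_, ?_,
      H917.conn_image (hc 0), H917.conn_image (hc 1),
      ⟨_, ⟨_, hs 0, rfl⟩, (hA _).1 (h.start 0)⟩, ⟨_, ⟨_, hs 1, rfl⟩, (hA _).1 (h.start 1)⟩,
      ⟨_, ⟨_, ht 0, rfl⟩, (hB _).1 (h.stop 0)⟩, ⟨_, ⟨_, ht 1, rfl⟩, (hB _).1 (h.stop 1)⟩⟩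
    · ext x
      constructor
      · rintro (⟨y, -, rfl⟩ | ⟨y, -, rfl⟩) <;> exact y.2
      · intro hx
        have h2 : p ⟨x, hx⟩ = 0 ∨ p ⟨x, hx⟩ = 1 := by
          generalize p ⟨x, hx⟩ = q
          fin_cases q <;> simp
        rcases h2 with h2 | h2
        · exact Or.inl (hcov 0 ⟨x, hx⟩ h2)
        · exact Or.inr (hcov 1 ⟨x, hx⟩ h2)
    · rw [Set.disjoint_left]
      rintro x ⟨y, hy, rfl⟩ ⟨y', hy', h'⟩
      have h3 : y' = y := Subtype.ext h'
      subst h3
      have h4 : p y' = 0 := hy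
      have h5 : p y' = 1 := hy'
      rw [h4] at h5
      exact absurd h5 (by decide)
  · left
    obtain ⟨a0, ha0⟩ := hTn
    obtain ⟨b0, hb0⟩ := hRn
    have hne : S.Nonempty := by
      rw [Finset.nonempty_iff_ne_empty]
      rintro rfl
      obtain ⟨w⟩ := hE.preconnected ⟨a0, hT ha0⟩ ⟨b0, hR hb0⟩
      obtain ⟨j, -, hj⟩ := hsep w.getVert w.length (by rw [w.getVert_zero]; exact (hA _).2 ha0)
        (by rw [w.getVert_length]; exact (hB _).2 hb0) (fun j hj => w.adj_getVert_succ hj)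
      exact absurd hj (Finset.notMem_empty _)
    obtain ⟨t, rfl⟩ := Finset.card_eq_one.1 (le_antisymm (by omega) (Finset.card_pos.2 hne))
    let Y : Set V := {x | ∃ (w : ℕ → E) (n : ℕ), (w 0).1 ∈ T ∧ (w n).1 = x ∧
      (∀ j < n, G.Adj (w j).1 (w (j + 1)).1) ∧ ∀ j ≤ n, w j ≠ t}
    refine ⟨t.1, t.2, Y, ?_, ?_, ?_, ?_, ?_⟩
    · rintro x ⟨w, n, -, rfl, -⟩
      exact (w n).2
    · rintro ⟨w, n, -, h1, -, h2⟩
      exact h2 n le_rfl (Subtype.ext h1)
    · intro x hx
      by_cases hxt : x = t.1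
      · exact Or.inl hxt
      · exact Or.inr ⟨fun _ => ⟨x, hT hx⟩, 0, hx, rfl, fun j hj => absurd hj (Nat.not_lt_zero _),
          fun j _ h => hxt (congrArg Subtype.val h)⟩
    · rw [Set.disjoint_left]
      rintro x ⟨w, n, h0, rfl, h1, h2⟩ hx
      obtain ⟨j, hj, hj'⟩ := hsep w n ((hA _).2 h0) ((hB _).2 hx) (fun j hj => h1 j hj)
      exact h2 j hj (Finset.mem_singleton.1 hj')
    · rintro y ⟨w, n, h0, rfl, h1, h2⟩ x hx hadj
      by_cases hxt : x = t.1
      · exact Or.inl hxt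
      · refine Or.inr ⟨fun j => if j ≤ n then w j else ⟨x, hx⟩, n + 1, ?_, ?_, ?_, ?_⟩
        · simpa using h0
        · simp
        · intro j hj
          by_cases hjn : j < n
          · have h3 : j ≤ n := hjn.le
            have h4 : j + 1 ≤ n := hjn
            simp only [if_pos h3, if_pos h4]
            exact h1 j hjn
          · have h3 : j = n := by omega
            subst h3
            simp only [le_refl, if_true]
            rw [if_neg (by omega)]
            exact hadj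
        · intro j hj
          by_cases hjn : j ≤ n
          · simp only [if_pos hjn]
            exact h2 j hjn
          · simp only [if_neg hjn]
            exact fun h => hxt (congrArg Subtype.val h)

end Vale.Agent.P235.H536Q
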